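import Crest.Prelude.Def_GroupVNA

/-!
Row 134: basic facts on the group von Neumann algebra and its trace vector.
-/

set_option autoImplicit false
set_option linter.unusedVariables false
set_option linter.unusedSectionVars false
set_option linter.deprecated false

open Crest.OpAlg Filter Topology
open scoped InnerProductSpace

namespace Crest.Agent.R134

variable {G : Type*} [Group G] [DecidableEq G]

/-- Bounded operators on `ℓ²(G)`. -/
abbrev BH (G : Type*) := ltwo G →L[ℂ] ltwo G

/-- The basis vector at `g`. -/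
noncomputable def dl (g : G) : ltwo G := lp.single 2 g (1 : ℂ)

lemma dl_apply (g h : G) : (dl g : ltwo G) h = if h = g then 1 else 0 := by
  simp [dl, lp.single_apply, Pi.single_apply]

lemma inner_dl (g : G) (η : ltwo G) : ⟪dl g, η⟫_ℂ = η g := by
  simp [dl, lp.inner_single_left]

lemma dl_orth : Orthonormal ℂ (dl : G → ltwo G) := by
  rw [orthonormal_iff_ite]
  intro g h
  rw [inner_dl, dl_apply]

lemma norm_dl (g : G) : ‖(dl g : ltwo G)‖ = 1 := dl_orth.1 g

lemma single_eq (g : G) (c : ℂ) : (lp.single 2 g c : ltwo G) = c • dl g := by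
  rw [dl, ← lp.single_smul]; simp

lemma dense_dl : Dense ((Submodule.span ℂ (Set.range (dl : G → ltwo G)) :
    Submodule ℂ (ltwo G)) : Set (ltwo G)) := by
  intro η
  have h := lp.hasSum_single (p := 2) (by norm_num) η
  refine mem_closure_of_tendsto h (Eventually.of_forall fun s => ?_)
  refine Submodule.sum_mem _ fun g _ => ?_
  rw [single_eq]
  exact Submodule.smul_mem _ _ (Submodule.subset_span ⟨g, rfl⟩)

lemma ext_dl {E : Type*} [NormedAddCommGroup E] [NormedSpace ℂ E] {S T : ltwo G →L[ℂ] E}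
    (h : ∀ g, S (dl g) = T (dl g)) : S = T := by
  refine ContinuousLinearMap.ext_on dense_dl ?_
  rintro _ ⟨g, rfl⟩
  exact h g

lemma ext_entries {S T : BH G} (h : ∀ g k, ⟪dl k, S (dl g)⟫_ℂ = ⟪dl k, T (dl g)⟫_ℂ) : S = T :=
  ext_dl fun g => lp.ext (funext fun k => by simpa only [inner_dl] using h g k)

lemma reindex_apply (e : Equiv.Perm G) (η : ltwo G) (h : G) : ltwoReindex e η h = η (e h) := rfl

lemma reindex_dl (e : Equiv.Perm G) (g : G) : ltwoReindex e (dl g) = dl (e.symm g) := by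
  ext h
  rw [reindex_apply, dl_apply, dl_apply]
  simp only [Equiv.apply_eq_iff_eq_symm_apply]

lemma leftRegular_dl (g h : G) : leftRegular g (dl h) = dl (g * h) := by
  change ltwoReindex _ (dl h) = _
  rw [reindex_dl]; simp

/-- The left regular representation. -/
noncomputable def lam : G →* BH G where
  toFun := leftRegular
  map_one' := ext_dl fun g => by simp [leftRegular_dl]
  map_mul' g h := ext_dl fun k => by simp [leftRegular_dl, mul_assoc]

lemma lam_dl (g h : G) : lam g (dl h) = dl (g * h) := leftRegular_dl g h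

lemma star_lam (g : G) : star (lam g : BH G) = lam g⁻¹ := by
  refine ext_entries fun h k => ?_
  rw [ContinuousLinearMap.star_eq_adjoint, ContinuousLinearMap.adjoint_inner_right, lam_dl,
    lam_dl, inner_dl, inner_dl, dl_apply, dl_apply]
  simp only [eq_inv_mul_iff_mul_eq]

lemma lam_unitary (g : G) : (lam g : BH G) ∈ unitary (BH G) := by
  rw [Unitary.mem_iff, star_lam, ← map_mul, ← map_mul]; simp

/-- Right translation. -/
noncomputable def rho (g : G) : BH G :=
  ((ltwoReindex (Equiv.mulRight g⁻¹) : ltwo G ≃ₗᵢ[ℂ] ltwo G) : ltwo G →L[ℂ] ltwo G)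

lemma rho_dl (g h : G) : rho g (dl h) = dl (h * g) := by
  change ltwoReindex _ (dl h) = _
  rw [reindex_dl]; simp

lemma rho_apply (g : G) (η : ltwo G) (h : G) : rho g η h = η (h * g⁻¹) := rfl

lemma rho_comm (g h : G) : Commute (rho g) (lam h) :=
  ext_dl fun k => by simp [rho_dl, lam_dl, mul_assoc]

/-- The group von Neumann algebra. -/
noncomputable abbrev MM (G : Type*) [Group G] : StarSubalgebra ℂ (BH G) :=
  (groupVNA G).toStarSubalgebra

lemma comm_star {T : BH G} (h : ∀ g, Commute T (lam g)) (g : G) : Commute (star T) (lam g) := by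
  have := congrArg star (h g⁻¹).eq
  rw [star_mul, star_mul, star_lam, inv_inv] at this
  exact this.symm

lemma mem_MM {x : BH G} : x ∈ MM G ↔ ∀ T : BH G, (∀ g, Commute T (lam g)) → Commute T x := by
  have h1 : ∀ T : BH G, T ∈ StarSubalgebra.centralizer ℂ (Set.range (leftRegular (G := G))) ↔
      ∀ g, Commute T (lam g) := fun T => by
    rw [StarSubalgebra.mem_centralizer_iff]
    constructor
    · exact fun h g => (h _ ⟨g, rfl⟩).1.symm
    · rintro h _ ⟨g, rfl⟩
      refine ⟨(h g).symm.eq, ?_⟩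
      change star (lam g) * T = T * star (lam g)
      rw [star_lam]; exact (h _).symm.eq
  change x ∈ StarSubalgebra.centralizer ℂ _ ↔ _
  rw [StarSubalgebra.mem_centralizer_iff]
  constructor
  · exact fun h T hT => (h T ((h1 T).2 hT)).1
  · exact fun h T hT => ⟨h T ((h1 T).1 hT), h _ (comm_star ((h1 T).1 hT))⟩

lemma lam_mem (g : G) : (lam g : BH G) ∈ MM G := mem_MM.2 fun T hT => hT g

lemma norm_unitary {u : BH G} (hu : u ∈ unitary (BH G)) (η : ltwo G) : ‖u η‖ = ‖η‖ :=
  ContinuousLinearMap.norm_map_of_mem_unitary hu η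

lemma tr_star {x : BH G} (hx : x ∈ MM G) : ‖(star x) (dl 1)‖ = ‖x (dl 1)‖ := by
  have h : ∀ g : G, ‖(star x) (dl 1) g‖ = ‖x (dl 1) g⁻¹‖ := fun g => by
    rw [← inner_dl, ContinuousLinearMap.star_eq_adjoint, ContinuousLinearMap.adjoint_inner_right,
      norm_inner_symm, inner_dl]
    have h1 : x (dl g) = rho g (x (dl 1)) := by
      have := congrArg (fun T : BH G => T (dl 1)) (mem_MM.1 hx _ (rho_comm g)).eq
      simpa [rho_dl] using this.symm
    rw [h1, rho_apply, one_mul]
  rw [lp.norm_eq_tsum_rpow (by norm_num), lp.norm_eq_tsum_rpow (by norm_num)]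
  congr 1
  simp only [h]
  exact Equiv.tsum_eq (Equiv.inv G) (fun g => ‖x (dl 1) g‖ ^ (2 : ENNReal).toReal)

lemma tr_mul {w z : BH G} (hw : w ∈ MM G) (hz : z ∈ MM G) (hu : z ∈ unitary (BH G)) :
    ‖w (z (dl 1))‖ = ‖w (dl 1)‖ := by
  have h := tr_star (mul_mem hw hz)
  rw [star_mul, ContinuousLinearMap.mul_apply, ContinuousLinearMap.mul_apply,
    norm_unitary (Unitary.star_mem hu), tr_star hw] at h
  exact h.symm

lemma tr_dl {w : BH G} (hw : w ∈ MM G) (g : G) : ‖w (dl g)‖ = ‖w (dl 1)‖ := by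
  have := tr_mul hw (lam_mem g) (lam_unitary g)
  rwa [lam_dl, mul_one] at this

/-- Unitaries implementing trace preserving automorphisms or endomorphisms. -/
structure Aut (V : BH G) : Prop where
  unit : V ∈ unitary (BH G)
  fix : V (dl 1) = dl 1
  conj : ∀ g, V * lam g * star V ∈ MM G

lemma Aut.conj_mem {V : BH G} (hV : Aut V) {x : BH G} (hx : x ∈ MM G) :
    V * x * star V ∈ MM G := by
  have h1 := hV.unit.1
  have h2 := hV.unit.2
  refine mem_MM.2 fun T hT => ?_
  have h3 : ∀ g, Commute (star V * T * V) (lam g) := fun g => by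
    have := (mem_MM.1 (hV.conj g) T hT).eq
    have h4 := congrArg (fun y => star V * y * V) this
    simp only [← mul_assoc, h1, one_mul] at h4
    simp only [mul_assoc, h1, mul_one] at h4
    simpa only [Commute, SemiconjBy, mul_assoc] using h4
  have h4 := congrArg (fun y => V * y * star V) (mem_MM.1 hx _ h3).eq
  simp only [← mul_assoc, h2, one_mul] at h4
  simp only [mul_assoc, h2, mul_one] at h4
  simpa only [Commute, SemiconjBy, mul_assoc] using h4

lemma Aut.one : Aut (1 : BH G) := ⟨one_mem _, rfl, fun g => by simpa using lam_mem g⟩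

lemma Aut.mul {V W : BH G} (hV : Aut V) (hW : Aut W) : Aut (V * W) := by
  refine ⟨mul_mem hV.unit hW.unit, by simp [hV.fix, hW.fix], fun g => ?_⟩
  have := hV.conj_mem (hW.conj g)
  simpa only [star_mul, mul_assoc] using this

lemma Aut.pow {V : BH G} (hV : Aut V) (n : ℕ) : Aut (V ^ n) := by
  induction n with
  | zero => simpa using Aut.one
  | succ n ih => rw [pow_succ]; exact ih.mul hV

lemma Aut.star_fix {V : BH G} (hV : Aut V) : (star V) (dl 1) = dl 1 := by
  conv_lhs => rw [← hV.fix, ← ContinuousLinearMap.mul_apply, hV.unit.1]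
  rfl

/-- The representation obtained by conjugation. -/
noncomputable def Aut.rep {V : BH G} (hV : Aut V) : G →* BH G where
  toFun g := V * lam g * star V
  map_one' := by simp [hV.unit.2]
  map_mul' g h := by
    simp only [map_mul, mul_assoc]
    rw [← mul_assoc (star V) V, hV.unit.1, one_mul]

lemma Aut.rep_mem {V : BH G} (hV : Aut V) (g : G) : hV.rep g ∈ MM G := hV.conj g

lemma Aut.rep_unitary {V : BH G} (hV : Aut V) (g : G) : hV.rep g ∈ unitary (BH G) :=
  mul_mem (mul_mem hV.unit (lam_unitary g)) (Unitary.star_mem hV.unit)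

lemma Aut.rep_V {V : BH G} (hV : Aut V) (g h : G) : hV.rep g (V (dl h)) = V (dl (g * h)) := by
  change (V * lam g * star V * V) (dl h) = _
  rw [mul_assoc, hV.unit.1, mul_one, ContinuousLinearMap.mul_apply, lam_dl]

lemma Aut.rep_one {V : BH G} (hV : Aut V) (g : G) : hV.rep g (dl 1) = V (dl g) := by
  conv_lhs => rw [← hV.fix, hV.rep_V, mul_one]

/-- An isometry with intertwining data is in `Aut`. -/
lemma Aut.of_intertwine {V : BH G} (hu : V ∈ unitary (BH G)) (h1 : V (dl 1) = dl 1)
    (α : G → BH G) (hα : ∀ g, α g ∈ MM G) (h : ∀ g k, α g (V (dl k)) = V (dl (g * k))) :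
    Aut V := by
  refine ⟨hu, h1, fun g => ?_⟩
  have : V * lam g = α g * V := ext_dl fun k => by simp [h, lam_dl]
  rw [this, mul_assoc, hu.2, mul_one]
  exact hα g

lemma aut_of_mulEquiv (θ : G ≃* G) : ∃ S : BH G, Aut S ∧ ∀ g, S (dl g) = dl (θ g) := by
  let e : ltwo G ≃ₗᵢ[ℂ] ltwo G := ltwoReindex θ.symm.toEquiv
  have he : ∀ g, (e : BH G) (dl g) = dl (θ g) := fun g => reindex_dl _ g
  refine ⟨e, Aut.of_intertwine ?_ (by rw [he, map_one]) (fun g => lam (θ g))
    (fun g => lam_mem _) fun g k => by rw [he, he, lam_dl, map_mul], he⟩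
  exact (Unitary.linearIsometryEquiv.symm e).2

lemma star_rep {F : Type*} [Group F] (π : F →* BH G) (hu : ∀ g, π g ∈ unitary (BH G)) (g : F) :
    star (π g) = π g⁻¹ := by
  have h := (hu g).1
  calc star (π g) = star (π g) * (π g * π g⁻¹) := by rw [← map_mul]; simp
    _ = _ := by rw [← mul_assoc, h, one_mul]

/-- Words are Lipschitz for the trace norm. -/
lemma lipschitz {ι : Type*} (g : FreeGroup ι) : ∃ C : ℝ, 0 ≤ C ∧
    ∀ (π₁ π₂ : FreeGroup ι →* BH G) (ε : ℝ), 0 ≤ ε → (∀ g, π₁ g ∈ MM G) → (∀ g, π₂ g ∈ MM G) →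
      (∀ g, π₁ g ∈ unitary (BH G)) → (∀ g, π₂ g ∈ unitary (BH G)) →
      (∀ i, ‖π₁ (.of i) (dl 1) - π₂ (.of i) (dl 1)‖ ≤ ε) →
      ‖π₁ g (dl 1) - π₂ g (dl 1)‖ ≤ C * ε := by
  induction g using FreeGroup.induction_on with
  | C1 => exact ⟨0, le_rfl, fun π₁ π₂ ε _ _ _ _ _ _ => by simp⟩
  | of i => exact ⟨1, zero_le_one, fun π₁ π₂ ε _ _ _ _ _ h => by simpa using h i⟩
  | inv_of i ih =>
    refine ⟨1, zero_le_one, fun π₁ π₂ ε _ m1 m2 u1 u2 h => ?_⟩
    have := tr_star (sub_mem (m1 (.of i)) (m2 (.of i)))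
    rw [star_sub, star_rep π₁ u1, star_rep π₂ u2] at this
    simp only [ContinuousLinearMap.sub_apply] at this
    rw [this, one_mul]; exact h i
  | mul g k ihg ihk =>
    obtain ⟨C, hC, ihg⟩ := ihg
    obtain ⟨D, hD, ihk⟩ := ihk
    refine ⟨C + D, add_nonneg hC hD, fun π₁ π₂ ε hε m1 m2 u1 u2 h => ?_⟩
    have e : π₁ (g * k) (dl 1) - π₂ (g * k) (dl 1) =
        (π₁ g - π₂ g) (π₂ k (dl 1)) + π₁ g (π₁ k (dl 1) - π₂ k (dl 1)) := by
      simp
    rw [e, add_mul]
    refine (norm_add_le _ _).trans (add_le_add ?_ ?_)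
    · rw [tr_mul (sub_mem (m1 g) (m2 g)) (m2 k) (u2 k)]
      exact ihg π₁ π₂ ε hε m1 m2 u1 u2 h
    · rw [norm_unitary (u1 g)]
      exact ihk π₁ π₂ ε hε m1 m2 u1 u2 h

/-- The isometry sending the basis to an orthonormal family. -/
lemma exists_isometry {F E : Type*} [DecidableEq F] [NormedAddCommGroup E]
    [InnerProductSpace ℂ E] [CompleteSpace E] (v : F → E) (hv : Orthonormal ℂ v) :
    ∃ J : ltwo F →ₗᵢ[ℂ] E, ∀ g, J (lp.single 2 g (1 : ℂ)) = v g :=
  ⟨hv.orthogonalFamily.linearIsometry, fun g => by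
    rw [OrthogonalFamily.linearIsometry_apply_single]; simp⟩

end Crest.Agent.R134
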